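import Mathlib

/-! Biased Fourier analysis on the cube `ι → Bool`. -/

namespace Vale.Agent.P063

open Finset

noncomputable section

variable {ι : Type} [Fintype ι] [DecidableEq ι]

def cw (p : ℝ) (b : Bool) : ℝ := if b = true then p else 1 - p

def wt (p : ℝ) (x : ι → Bool) : ℝ := ∏ i, cw p (x i)

def Ex (p : ℝ) (g : (ι → Bool) → ℝ) : ℝ := ∑ x, wt p x * g x

def psi (p : ℝ) (b : Bool) : ℝ := if b = true then 1 - p else -p

def chi (p : ℝ) (S : Finset ι) (x : ι → Bool) : ℝ := ∏ i ∈ S, psi p (x i)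

def coef (p : ℝ) (f : (ι → Bool) → ℝ) (S : Finset ι) : ℝ :=
  Ex p (fun x => f x * chi p S x) / (p * (1 - p)) ^ S.card

def W (p : ℝ) (f : (ι → Bool) → ℝ) (S : Finset ι) : ℝ :=
  coef p f S ^ 2 * (p * (1 - p)) ^ S.card

def D (i : ι) (f : (ι → Bool) → ℝ) (x : ι → Bool) : ℝ :=
  f (Function.update x i true) - f (Function.update x i false)

def infl (p : ℝ) (f : (ι → Bool) → ℝ) (i : ι) : ℝ := Ex p (fun x => D i f x ^ 2)

def tot (p : ℝ) (f : (ι → Bool) → ℝ) : ℝ := ∑ i, infl p f i

variable {p : ℝ}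

lemma cw_nonneg (h0 : 0 ≤ p) (h1 : p ≤ 1) (b : Bool) : 0 ≤ cw p b := by
  unfold cw; split_ifs <;> linarith

lemma cw_pos (h0 : 0 < p) (h1 : p < 1) (b : Bool) : 0 < cw p b := by
  unfold cw; split_ifs <;> linarith

omit [DecidableEq ι] in
lemma wt_nonneg (h0 : 0 ≤ p) (h1 : p ≤ 1) (x : ι → Bool) : 0 ≤ wt p x :=
  prod_nonneg fun i _ => cw_nonneg h0 h1 (x i)

omit [DecidableEq ι] in
lemma wt_pos (h0 : 0 < p) (h1 : p < 1) (x : ι → Bool) : 0 < wt p x :=
  prod_pos fun i _ => cw_pos h0 h1 (x i)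

lemma Ex_prod (g : ι → Bool → ℝ) :
    Ex p (fun x => ∏ i, g i (x i)) = ∏ i, (p * g i true + (1 - p) * g i false) := by
  have h := Finset.prod_univ_sum (fun _ : ι => (univ : Finset Bool))
    (fun i b => cw p b * g i b)
  rw [Fintype.piFinset_univ] at h
  unfold Ex wt
  simp only [← prod_mul_distrib]
  rw [← h]
  refine prod_congr rfl fun i _ => ?_
  simp [cw]

lemma Ex_one : Ex p (fun _ : ι → Bool => (1 : ℝ)) = 1 := by
  have := Ex_prod (p := p) (ι := ι) (fun _ _ => 1)
  simpa using this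

lemma Ex_const (c : ℝ) : Ex p (fun _ : ι → Bool => c) = c := by
  have h := Ex_one (p := p) (ι := ι)
  unfold Ex at h ⊢
  simp only [mul_one] at h
  rw [← sum_mul, h, one_mul]

lemma Ex_add (f g : (ι → Bool) → ℝ) :
    Ex p (fun x => f x + g x) = Ex p f + Ex p g := by
  unfold Ex; simp only [mul_add, sum_add_distrib]

lemma Ex_const_mul (c : ℝ) (f : (ι → Bool) → ℝ) :
    Ex p (fun x => c * f x) = c * Ex p f := by
  unfold Ex; rw [mul_sum]; refine sum_congr rfl fun x _ => by ring

lemma Ex_sum {α : Type} (s : Finset α) (f : α → (ι → Bool) → ℝ) :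
    Ex p (fun x => ∑ a ∈ s, f a x) = ∑ a ∈ s, Ex p (f a) := by
  unfold Ex; simp only [mul_sum]; rw [sum_comm]

lemma Ex_mono (h0 : 0 ≤ p) (h1 : p ≤ 1) {f g : (ι → Bool) → ℝ} (h : ∀ x, f x ≤ g x) :
    Ex p f ≤ Ex p g :=
  sum_le_sum fun x _ => mul_le_mul_of_nonneg_left (h x) (wt_nonneg h0 h1 x)

lemma Ex_nonneg (h0 : 0 ≤ p) (h1 : p ≤ 1) {f : (ι → Bool) → ℝ} (h : ∀ x, 0 ≤ f x) :
    0 ≤ Ex p f :=
  sum_nonneg fun x _ => mul_nonneg (wt_nonneg h0 h1 x) (h x)

lemma Ex_cs (h0 : 0 ≤ p) (h1 : p ≤ 1) (f g : (ι → Bool) → ℝ) :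
    Ex p (fun x => f x * g x) ^ 2 ≤ Ex p (fun x => f x ^ 2) * Ex p (fun x => g x ^ 2) := by
  unfold Ex
  refine sum_sq_le_sum_mul_sum_of_sq_le_mul _ (fun x _ => ?_) (fun x _ => ?_) (fun x _ => ?_)
  · exact mul_nonneg (wt_nonneg h0 h1 x) (sq_nonneg _)
  · exact mul_nonneg (wt_nonneg h0 h1 x) (sq_nonneg _)
  · exact le_of_eq (by ring)

lemma chi_eq_prod_univ (S : Finset ι) (x : ι → Bool) :
    chi p S x = ∏ i, (if i ∈ S then psi p (x i) else 1) := by
  unfold chi; rw [prod_ite_mem, univ_inter]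

lemma Ex_chi_mul (S T : Finset ι) :
    Ex p (fun x => chi p S x * chi p T x) = if S = T then (p * (1 - p)) ^ S.card else 0 := by
  have h := Ex_prod (p := p) (fun i b =>
    (if i ∈ S then psi p b else 1) * (if i ∈ T then psi p b else 1))
  simp only [prod_mul_distrib, ← chi_eq_prod_univ] at h
  rw [h]
  split_ifs with hST
  · subst hST
    rw [← prod_const, ← univ_inter S, ← prod_ite_mem, univ_inter]
    refine prod_congr rfl fun i _ => ?_
    split_ifs <;> simp [psi] ; ring
  · have : ∃ i, ¬ (i ∈ S ↔ i ∈ T) := by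
      by_contra hc
      push Not at hc
      exact hST (Finset.ext hc)
    obtain ⟨i, hi⟩ := this
    refine prod_eq_zero (mem_univ i) ?_
    by_cases h1 : i ∈ S <;> by_cases h2 : i ∈ T <;> simp [h1, h2, psi] at hi ⊢ <;> ring

omit [DecidableEq ι] in
lemma kernel_id (h0 : 0 < p) (h1 : p < 1) (x y : ι → Bool) :
    ∑ S : Finset ι, wt p y * (chi p S y * chi p S x / (p * (1 - p)) ^ S.card)
      = if y = x then 1 else 0 := by
  have hq : p * (1 - p) ≠ 0 := (mul_pos h0 (by linarith)).ne'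
  have h := Finset.prod_one_add (f := fun i => psi p (y i) * psi p (x i) / (p * (1 - p)))
    (univ : Finset ι)
  rw [powerset_univ] at h
  have h2 : ∀ S : Finset ι, chi p S y * chi p S x / (p * (1 - p)) ^ S.card
      = ∏ i ∈ S, psi p (y i) * psi p (x i) / (p * (1 - p)) := by
    intro S
    rw [prod_div_distrib, prod_mul_distrib, prod_const]; rfl
  simp only [h2]
  rw [← mul_sum, ← h]
  unfold wt
  rw [← prod_mul_distrib]
  have hp' : (1 - p) ≠ 0 := by linarith
  have hp : p ≠ 0 := h0.ne'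
  split_ifs with hxy
  · subst hxy
    refine prod_eq_one fun i _ => ?_
    cases y i <;> simp [cw, psi] <;> field_simp <;> ring
  · have : ∃ i, y i ≠ x i := by
      by_contra hc
      push Not at hc
      exact hxy (funext hc)
    obtain ⟨i, hi⟩ := this
    refine prod_eq_zero (mem_univ i) ?_
    cases hy : y i <;> cases hx : x i <;> simp [hx, hy] at hi <;> simp [cw, psi] <;>
      right <;> field_simp <;> ring

lemma expansion (h0 : 0 < p) (h1 : p < 1) (f : (ι → Bool) → ℝ) (x : ι → Bool) :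
    f x = ∑ S : Finset ι, coef p f S * chi p S x := by
  have : ∀ S : Finset ι, coef p f S * chi p S x
      = ∑ y, f y * (wt p y * (chi p S y * chi p S x / (p * (1 - p)) ^ S.card)) := by
    intro S
    unfold coef Ex
    rw [sum_div, sum_mul]
    refine sum_congr rfl fun y _ => by ring
  simp only [this]
  rw [sum_comm]
  simp only [← mul_sum, kernel_id h0 h1]
  simp

/-- Inner products of expansions along an injective reindexing. -/
lemma Ex_family (A : Finset (Finset ι)) (φ : Finset ι → Finset ι)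
    (hφ : ∀ S ∈ A, ∀ T ∈ A, φ S = φ T → S = T) (a b : Finset ι → ℝ) :
    Ex p (fun x => (∑ S ∈ A, a S * chi p (φ S) x) * (∑ T ∈ A, b T * chi p (φ T) x))
      = ∑ S ∈ A, a S * b S * (p * (1 - p)) ^ (φ S).card := by
  have : ∀ x, (∑ S ∈ A, a S * chi p (φ S) x) * (∑ T ∈ A, b T * chi p (φ T) x)
      = ∑ S ∈ A, ∑ T ∈ A, (a S * b T) * (chi p (φ S) x * chi p (φ T) x) := by
    intro x
    rw [sum_mul_sum]
    refine sum_congr rfl fun S _ => sum_congr rfl fun T _ => by ring
  simp only [this]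
  rw [Ex_sum]
  refine sum_congr rfl fun S hS => ?_
  rw [Ex_sum]
  simp only [Ex_const_mul, Ex_chi_mul]
  rw [sum_eq_single S]
  · simp
  · intro T hT hne
    rw [if_neg (fun h => hne (hφ S hS T hT h).symm), mul_zero]
  · intro h; exact absurd hS h

lemma Ex_parseval (a b : Finset ι → ℝ) :
    Ex p (fun x => (∑ S, a S * chi p S x) * (∑ T, b T * chi p T x))
      = ∑ S, a S * b S * (p * (1 - p)) ^ S.card :=
  Ex_family univ id (fun _ _ _ _ h => h) a b

lemma coef_of_expansion (h0 : 0 < p) (h1 : p < 1) (a : Finset ι → ℝ) (T : Finset ι) :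
    coef p (fun x => ∑ S, a S * chi p S x) T = a T := by
  have hq : p * (1 - p) ≠ 0 := (mul_pos h0 (by linarith)).ne'
  have h := Ex_parseval (p := p) a (fun S => if S = T then 1 else 0)
  simp only [ite_mul, one_mul, zero_mul, sum_ite_eq', mem_univ, if_true, mul_ite, mul_one,
    mul_zero] at h
  unfold coef
  rw [h]
  field_simp

lemma W_nonneg (h0 : 0 < p) (h1 : p < 1) (f : (ι → Bool) → ℝ) (S : Finset ι) : 0 ≤ W p f S :=
  mul_nonneg (sq_nonneg _) (pow_nonneg (mul_pos h0 (by linarith)).le _)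

lemma sum_W (h0 : 0 < p) (h1 : p < 1) (f : (ι → Bool) → ℝ) :
    ∑ S, W p f S = Ex p (fun x => f x ^ 2) := by
  have h := Ex_parseval (p := p) (coef p f) (coef p f)
  simp only [← expansion h0 h1 f] at h
  simp only [sq, h, W]

lemma coef_empty (f : (ι → Bool) → ℝ) : coef p f ∅ = Ex p f := by
  simp [coef, chi]

lemma W_empty (f : (ι → Bool) → ℝ) : W p f ∅ = Ex p f ^ 2 := by
  simp [W, coef_empty]

omit [Fintype ι] in
lemma chi_update_of_notMem {S : Finset ι} {i : ι} (hi : i ∉ S) (x : ι → Bool) (b : Bool) :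
    chi p S (Function.update x i b) = chi p S x := by
  unfold chi
  refine prod_congr rfl fun j hj => ?_
  have hne : j ≠ i := fun h => hi (h ▸ hj)
  rw [Function.update_of_ne hne]

omit [Fintype ι] in
lemma chi_insert {S : Finset ι} {i : ι} (hi : i ∉ S) (x : ι → Bool) :
    chi p (insert i S) x = psi p (x i) * chi p S x := by
  unfold chi; rw [prod_insert hi]

lemma sum_split (i : ι) (F : Finset ι → ℝ) :
    ∑ S, F S = ∑ T, (if i ∈ T then 0 else F T + F (insert i T)) := by
  have h := sum_powerset_insert (s := univ.erase i) (a := i) (by simp) F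
  rw [insert_erase (mem_univ i), powerset_univ] at h
  rw [h, ← sum_add_distrib]
  rw [← sum_filter_add_sum_filter_not univ (fun T : Finset ι => i ∈ T)]
  rw [sum_eq_zero (s := univ.filter fun T : Finset ι => i ∈ T)
    (fun T hT => if_pos (mem_filter.1 hT).2), zero_add]
  refine sum_congr ?_ fun T hT => (if_neg (mem_filter.1 hT).2).symm
  ext T
  simp [subset_erase]

lemma D_expansion (h0 : 0 < p) (h1 : p < 1) (f : (ι → Bool) → ℝ) (i : ι) (x : ι → Bool) :
    D i f x = ∑ T, (if i ∈ T then 0 else coef p f (insert i T)) * chi p T x := by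
  unfold D
  rw [expansion h0 h1 f (Function.update x i true), expansion h0 h1 f (Function.update x i false),
    ← sum_sub_distrib, sum_split i]
  refine sum_congr rfl fun T _ => ?_
  split_ifs with hT
  · simp
  · rw [chi_insert hT, chi_insert hT]
    simp only [chi_update_of_notMem hT, Function.update_self, psi]
    simp; ring

lemma coef_D (h0 : 0 < p) (h1 : p < 1) (f : (ι → Bool) → ℝ) (i : ι) (T : Finset ι) :
    coef p (D i f) T = if i ∈ T then 0 else coef p f (insert i T) := by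
  have : D i f = fun x => ∑ T, (if i ∈ T then 0 else coef p f (insert i T)) * chi p T x :=
    funext fun x => D_expansion h0 h1 f i x
  rw [this, coef_of_expansion h0 h1]

lemma sum_W_D (h0 : 0 < p) (h1 : p < 1) (f : (ι → Bool) → ℝ) (i : ι) (φ : ℕ → ℝ) :
    p * (1 - p) * ∑ T, φ (T.card + 1) * W p (D i f) T
      = ∑ S, (if i ∈ S then φ S.card * W p f S else 0) := by
  rw [sum_split i (fun S => if i ∈ S then φ S.card * W p f S else 0), mul_sum]
  refine sum_congr rfl fun T _ => ?_
  unfold W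
  rw [coef_D h0 h1]
  split_ifs with hT h2
  · simp
  · rw [card_insert_of_notMem hT]; ring
  · exact absurd (mem_insert_self i T) h2

lemma sum_W_tot (h0 : 0 < p) (h1 : p < 1) (f : (ι → Bool) → ℝ) :
    p * (1 - p) * tot p f = ∑ S, (S.card : ℝ) * W p f S := by
  unfold tot infl
  rw [mul_sum]
  have : ∀ i, p * (1 - p) * Ex p (fun x => D i f x ^ 2)
      = ∑ S, (if i ∈ S then W p f S else 0) := by
    intro i
    have h := sum_W_D h0 h1 f i (fun _ => 1)
    simp only [one_mul] at h
    rw [← h, sum_W h0 h1]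
  simp only [this]
  rw [sum_comm]
  refine sum_congr rfl fun S _ => ?_
  rw [sum_ite_mem, univ_inter, sum_const, nsmul_eq_mul]

lemma Ex_avg (h0 : 0 < p) (h1 : p < 1) (g : (ι → Bool) → ℝ) (i : ι) :
    Ex p g = Ex p (fun x => p * g (Function.update x i true)
      + (1 - p) * g (Function.update x i false)) := by
  have : (fun x => p * g (Function.update x i true) + (1 - p) * g (Function.update x i false))
      = fun x => ∑ T, (if i ∈ T then 0 else coef p g T) * chi p T x := by
    funext x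
    rw [expansion h0 h1 g (Function.update x i true),
      expansion h0 h1 g (Function.update x i false), mul_sum, mul_sum, ← sum_add_distrib,
      sum_split i]
    refine sum_congr rfl fun T _ => ?_
    split_ifs with hT
    · simp
    · rw [chi_insert hT, chi_insert hT]
      simp only [chi_update_of_notMem hT, Function.update_self, psi]
      simp; ring
  rw [this, ← coef_empty, ← coef_empty, coef_of_expansion h0 h1]
  simp

lemma two_point (h0 : 0 ≤ p) (h1 : p ≤ 1) (u v : ℝ) :
    p * (u + (1 - p) * v) ^ 4 + (1 - p) * (u - p * v) ^ 4 ≤ (u ^ 2 + v ^ 2) ^ 2 := by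
  have hq0 : 0 ≤ p * (1 - p) := mul_nonneg h0 (by linarith)
  have hq1 : p * (1 - p) ≤ 1 / 4 := by nlinarith [sq_nonneg (p - 1 / 2)]
  have key : p * (u + (1 - p) * v) ^ 4 + (1 - p) * (u - p * v) ^ 4
      = u ^ 4 + 6 * (p * (1 - p)) * (u * v) ^ 2
        + 4 * (p * (1 - p)) * ((1 - 2 * p) * (u * v) * v ^ 2)
        + (p * (1 - p)) * (1 - 3 * (p * (1 - p))) * (v ^ 2) ^ 2 := by ring
  rw [key]
  set q := p * (1 - p) with hq
  set a := u * v with ha
  set c := v ^ 2 with hc
  have hm : 2 * ((1 - 2 * p) * a * c) ≤ a ^ 2 + c ^ 2 := by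
    have h3 : (1 - 2 * p) ^ 2 ≤ 1 := by nlinarith
    nlinarith [sq_nonneg ((1 - 2 * p) * a - c), mul_le_mul_of_nonneg_right h3 (sq_nonneg a)]
  have e : (u ^ 2 + c) ^ 2 = u ^ 4 + 2 * a ^ 2 + c ^ 2 := by rw [ha, hc]; ring
  rw [e]
  have h4 : 4 * q * ((1 - 2 * p) * a * c) ≤ 2 * q * (a ^ 2 + c ^ 2) := by nlinarith
  have h5 : q * (1 - 3 * q) ≤ 1 / 4 := by nlinarith
  nlinarith [mul_le_mul_of_nonneg_right hq1 (sq_nonneg a),
    mul_le_mul_of_nonneg_right hq1 (sq_nonneg c), mul_le_mul_of_nonneg_right h5 (sq_nonneg c),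
    sq_nonneg a, sq_nonneg c]

/-- The (2,4) hypercontractive inequality in the basis `chi`. -/
lemma hyper_aux (h0 : 0 < p) (h1 : p < 1) (J : Finset ι) :
    ∀ a : Finset ι → ℝ, Ex p (fun x => (∑ S ∈ J.powerset, a S * chi p S x) ^ 4)
      ≤ (∑ S ∈ J.powerset, a S ^ 2) ^ 2 := by
  induction J using Finset.induction_on with
  | empty =>
    intro a
    simp only [powerset_empty, sum_singleton, chi, prod_empty, mul_one, Ex_const]
    exact le_of_eq (by ring)
  | insert i J hi ih =>
    intro a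
    set u : (ι → Bool) → ℝ := fun x => ∑ S ∈ J.powerset, a S * chi p S x with hu
    set v : (ι → Bool) → ℝ := fun x => ∑ S ∈ J.powerset, a (insert i S) * chi p S x with hv
    set A := ∑ S ∈ J.powerset, a S ^ 2 with hA
    set B := ∑ S ∈ J.powerset, a (insert i S) ^ 2 with hB
    have hA0 : 0 ≤ A := sum_nonneg fun _ _ => sq_nonneg _
    have hB0 : 0 ≤ B := sum_nonneg fun _ _ => sq_nonneg _
    have hu4 : Ex p (fun x => u x ^ 4) ≤ A ^ 2 := ih a
    have hv4 : Ex p (fun x => v x ^ 4) ≤ B ^ 2 := ih (fun S => a (insert i S))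
    have hg : ∀ (x : ι → Bool) (b : Bool),
        ∑ S ∈ (insert i J).powerset, a S * chi p S (Function.update x i b)
          = u x + psi p b * v x := by
      intro x b
      rw [sum_powerset_insert hi, hu, hv]
      simp only [mul_sum]
      congr 1
      · refine sum_congr rfl fun S hS => ?_
        rw [chi_update_of_notMem (fun h => hi (mem_powerset.1 hS h))]
      · refine sum_congr rfl fun S hS => ?_
        have hS' : i ∉ S := fun h => hi (mem_powerset.1 hS h)
        rw [chi_insert hS', chi_update_of_notMem hS', Function.update_self]; ring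
    rw [Ex_avg h0 h1 _ i, sum_powerset_insert hi, ← hA, ← hB]
    simp only [hg]
    have h2 : Ex p (fun x => p * (u x + psi p true * v x) ^ 4
        + (1 - p) * (u x + psi p false * v x) ^ 4)
        ≤ Ex p (fun x => (u x ^ 4 + 2 * (u x ^ 2 * v x ^ 2)) + v x ^ 4) := by
      refine Ex_mono h0.le h1.le fun x => ?_
      have := two_point h0.le h1.le (u x) (v x)
      simp only [psi, if_true, Bool.false_eq_true, if_false]
      calc _ = p * (u x + (1 - p) * v x) ^ 4 + (1 - p) * (u x - p * v x) ^ 4 := by ring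
        _ ≤ _ := this
        _ = _ := by ring
    refine h2.trans ?_
    rw [Ex_add, Ex_add, Ex_const_mul]
    have h3 := Ex_cs h0.le h1.le (fun x => u x ^ 2) (fun x => v x ^ 2)
    simp only [← pow_mul] at h3
    have hu0 : 0 ≤ Ex p (fun x => u x ^ 4) := Ex_nonneg h0.le h1.le fun x => by positivity
    have hv0 : 0 ≤ Ex p (fun x => v x ^ 4) := Ex_nonneg h0.le h1.le fun x => by positivity
    have h4 : Ex p (fun x => u x ^ 2 * v x ^ 2) ≤ A * B := by
      refine abs_le_of_sq_le_sq' ?_ (mul_nonneg hA0 hB0) |>.2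
      calc _ ≤ _ := h3
        _ ≤ A ^ 2 * B ^ 2 := mul_le_mul hu4 hv4 hv0 (sq_nonneg _)
        _ = _ := by ring
    nlinarith

lemma hyper (h0 : 0 < p) (h1 : p < 1) (a : Finset ι → ℝ) :
    Ex p (fun x => (∑ S, a S * chi p S x) ^ 4) ≤ (∑ S, a S ^ 2) ^ 2 := by
  have := hyper_aux h0 h1 univ a
  rwa [powerset_univ] at this

end

end Vale.Agent.P063
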